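import Vale.Agent.P197.Exceptional.Hook
import Vale.Agent.P197.Covering.Defs

/-!
# The exceptional shapes `(8, 1^6)`, `(7, 1^7)` for the layout `[gadget 3, single 2, gadget 1]`

Over the complex numbers no good vector exists, but modulo two there is one: a sum of polytabloids
over the seven-element sets with four prescribed intersection patterns with the classes.
-/

open Finset Equiv
open scoped Matrix

namespace Vale.Agent.P197.Exceptional

open SymChar Criterion Covering

/-- The class of a point in the exceptional layout. -/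
def exCls : Fin 14 → ℕ × ℕ := layCls (pieces [] 2)

/-- The gadget permutations of the exceptional layout. -/
def exGs : List (Perm (Fin 14)) := layGs (pieces [] 2)

/-- How many points of `A` lie in each class. -/
def profile (A : Finset (Fin 14)) (k : ℕ × ℕ) : ℕ := #{x ∈ A | exCls x = k}

/-- The seven classes. -/
def classes : List (ℕ × ℕ) := [(0, 0), (0, 1), (0, 2), (1, 0), (2, 0), (2, 1), (2, 2)]

/-- Cycling the three classes of the piece `i`. -/
def shiftCls (i : ℕ) (k : ℕ × ℕ) : ℕ × ℕ := if k.1 = i then (i, (k.2 + 1) % 3) else k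

/-- The chosen four intersection patterns. -/
def patInd (p : ℕ × ℕ → ℕ) : ZMod 2 :=
  if classes.map p ∈
    [[3, 2, 1, 0, 1, 0, 0], [1, 3, 2, 0, 1, 0, 0], [3, 2, 1, 0, 0, 1, 0], [1, 3, 2, 0, 0, 1, 0]]
  then 1 else 0

/-- The indicator of the family. -/
def famInd (A : Finset (Fin 14)) : ZMod 2 := patInd (profile A)

/-- `patInd` on the list of values. -/
def listInd (l : List ℕ) : ZMod 2 :=
  if l ∈ [[3, 2, 1, 0, 1, 0, 0], [1, 3, 2, 0, 1, 0, 0], [3, 2, 1, 0, 0, 1, 0],
    [1, 3, 2, 0, 0, 1, 0]] then 1 else 0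

lemma listInd_cycle (a b c d e f g : ℕ) :
    listInd [a, b, c, d, e, f, g] + listInd [b, c, a, d, e, f, g] +
        listInd [c, a, b, d, e, f, g] = 0 ∧
      listInd [a, b, c, d, e, f, g] + listInd [a, b, c, d, f, g, e] +
        listInd [a, b, c, d, g, e, f] = 0 := by
  have key : ∀ l₁ l₂ l₃ : List ℕ, ((∀ t ∈ [[3, 2, 1, 0, 1, 0, 0], [1, 3, 2, 0, 1, 0, 0],
      [3, 2, 1, 0, 0, 1, 0], [1, 3, 2, 0, 0, 1, 0]], l₁ ≠ t ∧ l₂ ≠ t ∧ l₃ ≠ t)) →
      listInd l₁ + listInd l₂ + listInd l₃ = 0 := by
    intro l₁ l₂ l₃ h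
    simp only [listInd]
    rw [if_neg (fun hh => (h _ hh).1 rfl), if_neg (fun hh => (h _ hh).2.1 rfl),
      if_neg (fun hh => (h _ hh).2.2 rfl)]
    rfl
  constructor <;> refine (Classical.em _).elim (fun h => key _ _ _ h) fun h => ?_
  all_goals
    push Not at h
    obtain ⟨t, ht, h⟩ := h
    rcases (show _ = t ∨ _ = t ∨ _ = t from
      (Classical.em _).elim Or.inl fun h1 => Or.inr
        ((Classical.em _).elim Or.inl fun h2 => Or.inr (h h1 h2))) with e | e | e <;>
      (simp only [List.mem_cons, List.not_mem_nil, or_false] at ht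
       rcases ht with rfl | rfl | rfl | rfl <;>
        (simp only [List.cons.injEq, and_true] at e
         obtain ⟨rfl, rfl, rfl, rfl, rfl, rfl, rfl⟩ := e
         decide))

lemma patInd_shift (p : ℕ × ℕ → ℕ) (i : ℕ) (hi : i = 0 ∨ i = 2) :
    patInd p + patInd (fun k => p (shiftCls i k)) +
      patInd (fun k => p (shiftCls i (shiftCls i k))) = 0 := by
  rcases hi with rfl | rfl
  · exact (listInd_cycle (p (0, 0)) (p (0, 1)) (p (0, 2)) (p (1, 0)) (p (2, 0)) (p (2, 1))
      (p (2, 2))).1
  · exact (listInd_cycle (p (0, 0)) (p (0, 1)) (p (0, 2)) (p (1, 0)) (p (2, 0)) (p (2, 1))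
      (p (2, 2))).2

/-- The gadget permutations cycle the classes, as a computation. -/
def shiftCheck : Bool :=
  exGs.all fun g => [0, 2].any fun i => (List.finRange 14).all fun x => classes.all fun k =>
    decide (exCls (g.symm x) = k) == decide (exCls x = shiftCls i k)

lemma shiftCheck_eq : shiftCheck = true := by decide +kernel

lemma exGs_shift : ∀ g ∈ exGs, ∃ i ∈ [0, 2], ∀ x : Fin 14, ∀ k ∈ classes,
    (exCls (g.symm x) = k ↔ exCls x = shiftCls i k) := by
  intro g hg
  have h := List.all_eq_true.mp shiftCheck_eq g hg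
  obtain ⟨i, hi, h⟩ := List.any_eq_true.mp h
  refine ⟨i, hi, fun x k hk => ?_⟩
  have h2 := List.all_eq_true.mp (List.all_eq_true.mp h x (List.mem_finRange x)) k hk
  simpa using h2

lemma shiftCls_mem : ∀ i ∈ [0, 2], ∀ k ∈ classes, shiftCls i k ∈ classes := by decide

lemma profile_image {y : Perm (Fin 14)} (hy : exCls ∘ y = exCls) (A : Finset (Fin 14)) :
    profile (A.image y) = profile A := by
  funext k
  simp only [profile, filter_image]
  rw [card_image_of_injective _ y.injective]
  exact congrArg card (filter_congr fun x _ => by rw [show exCls (y x) = exCls x from congrFun hy x])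

lemma patInd_congr {p q : ℕ × ℕ → ℕ} (h : ∀ k ∈ classes, p k = q k) : patInd p = patInd q := by
  rw [patInd, patInd, List.map_congr_left h]

lemma famInd_gadget {g : Perm (Fin 14)} (hg : g ∈ exGs) (A : Finset (Fin 14)) :
    famInd A + famInd (A.image g.symm) + famInd (A.image (g.symm * g.symm : Perm (Fin 14))) = 0 := by
  obtain ⟨i, hi, hiff⟩ := exGs_shift g hg
  have h1 : ∀ (B : Finset (Fin 14)), ∀ k ∈ classes,
      profile (B.image g.symm) k = profile B (shiftCls i k) := by
    intro B k hk
    simp only [profile, filter_image]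
    rw [card_image_of_injective _ g.symm.injective]
    exact congrArg card (filter_congr fun x _ => hiff x k hk)
  simp only [List.mem_cons, List.not_mem_nil, or_false] at hi
  have e2 : ∀ k ∈ classes, profile (A.image (g.symm * g.symm : Perm (Fin 14))) k =
      profile A (shiftCls i (shiftCls i k)) := fun k hk => by
    rw [Perm.coe_mul, ← image_image, h1 _ k hk,
      h1 _ _ (shiftCls_mem i (by simpa using hi) k hk)]
  simp only [famInd]
  rw [patInd_congr (h1 A), patInd_congr e2]
  exact patInd_shift _ i hi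

lemma famInd_detect : ∑ A ∈ (univ : Finset (Fin 14)).powersetCard 7,
    (if ({0, 1, 3, 4, 6, 11} : Finset (Fin 14)) ⊆ A then famInd A else 0) = 1 := by
  set D : Finset (Fin 14) := {0, 1, 3, 4, 6, 11} with hD
  have hset : ((univ : Finset (Fin 14)).powersetCard 7).filter (D ⊆ ·) =
      Dᶜ.image (fun x => insert x D) := by
    ext A
    simp only [mem_filter, mem_powersetCard_univ, mem_image, mem_compl]
    constructor
    · rintro ⟨hA, hsub⟩
      obtain ⟨x, hx⟩ := card_eq_one.mp (by rw [card_sdiff_of_subset hsub, hA]; decide : (A \ D).card = 1)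
      have hxA := mem_sdiff.mp (hx.symm ▸ mem_singleton_self x : x ∈ A \ D)
      exact ⟨x, hxA.2, by rw [insert_eq, ← hx, sdiff_union_of_subset hsub]⟩
    · rintro ⟨x, hx, rfl⟩
      exact ⟨by rw [card_insert_of_notMem hx]; decide, subset_insert _ _⟩
  rw [← sum_filter, hset, sum_image fun x hx y hy h => by
    have := mem_insert_self x D
    simp only [coe_compl, Set.mem_compl_iff, mem_coe] at hx
    rw [h, mem_insert] at this
    exact this.resolve_right hx]
  rw [hD]
  decide +kernel

/-- The witness for `(8, 1^6)`. -/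
theorem exists_mod_two_vec_hook (c : (14).Partition) (h0 : row c 0 = 8) (h1 : row c 1 ≤ 1) :
    ∃ (d : ℕ) (S : Perm (Fin 14) →* Matrix (Fin d) (Fin d) ℤ),
      (∀ g, (S g).trace = chi (beta c) g) ∧
      ∃ w : Fin d → ZMod 2, w ≠ 0 ∧ (∀ y : Perm (Fin 14), exCls ∘ y = exCls → red S y *ᵥ w = w) ∧
        ∀ g ∈ exGs, w + red S g *ᵥ w + red S (g * g) *ᵥ w = 0 := by
  obtain ⟨d, S, V, hS, hV, hD⟩ := exists_hook_form c h0 h1
  set 𝒜 := (univ : Finset (Fin 14)).powersetCard 7
  set w : Fin d → ZMod 2 := ∑ A ∈ 𝒜, famInd A • V A with hw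
  have hmove : ∀ g : Perm (Fin 14),
      red S g *ᵥ w = ∑ A ∈ 𝒜, famInd (A.image g.symm) • V A := by
    intro g
    rw [hw, Matrix.mulVec_sum]
    refine Finset.sum_bij' (fun A _ => A.image g) (fun A _ => A.image g.symm) ?_ ?_ ?_ ?_ ?_
    · intro A hA; simp only [𝒜, mem_powersetCard_univ, card_image_of_injective _ g.injective] at *; exact hA
    · intro A hA
      simp only [𝒜, mem_powersetCard_univ, card_image_of_injective _ g.symm.injective] at *; exact hA
    · intro A _; simp [image_image]
    · intro A _; simp [image_image]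
    · intro A hA
      rw [Matrix.mulVec_smul, hV g A (mem_powersetCard_univ.mp hA), image_image]
      simp
  refine ⟨d, S, hS, w, ?_, fun y hy => ?_, fun g hg => ?_⟩
  · intro h0w
    obtain ⟨φ, hφ⟩ := hD {0, 1, 3, 4, 6, 11} (by decide)
    have h : φ w = 1 := by
      rw [hw, map_sum, ← famInd_detect]
      refine sum_congr rfl fun A hA => ?_
      rw [map_smul, hφ A (mem_powersetCard_univ.mp hA), smul_eq_mul]
      split_ifs <;> simp
    rw [h0w, map_zero] at h
    exact zero_ne_one h
  · have hy' : exCls ∘ ⇑y.symm = exCls := by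
      funext x
      simpa using (congrFun hy (y.symm x)).symm
    rw [hmove, hw]
    exact sum_congr rfl fun A _ => by simp only [famInd, profile_image hy']
  · rw [hmove, hmove, hw, ← sum_add_distrib, ← sum_add_distrib]
    refine sum_eq_zero fun A hA => ?_
    rw [← add_smul, ← add_smul]
    have h := famInd_gadget hg A
    rw [show ((g * g : Perm (Fin 14))).symm = g.symm * g.symm from rfl, h, zero_smul]

/-- The witness for both shapes, on `Fin 14`. -/
theorem exists_exceptional_vec_fin (c : (14).Partition) (h1 : row c 1 ≤ 1)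
    (h0 : row c 0 = 8 ∨ row c 0 = 7) :
    ∃ (d : ℕ) (S : Perm (Fin 14) →* Matrix (Fin d) (Fin d) ℤ),
      ((∀ g, (S g).trace = chi (beta c) g) ∨
        ∀ g, (S g).trace = (Perm.sign g : ℤ) * chi (beta c) g) ∧
      ∃ w : Fin d → ZMod 2, w ≠ 0 ∧
        (∀ y : Perm (Fin 14), exCls ∘ y = exCls → red S y *ᵥ w = w) ∧
        ∀ g ∈ exGs, w + red S g *ᵥ w + red S (g * g) *ᵥ w = 0 := by
  rcases h0 with h0 | h0
  · obtain ⟨d, S, hS, rest⟩ := exists_mod_two_vec_hook c h0 h1
    exact ⟨d, S, Or.inl hS, rest⟩
  · -- the conjugate of `(7, 1^7)` is `(8, 1^6)`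
    have e : row (conjP c) 0 = 8 ∧ row (conjP c) 1 ≤ 1 := by
      have hc1 : colLen c 1 ≤ 1 := by
        by_contra h
        push Not at h
        have := (lt_colLen_iff c 1 1).mp h
        omega
      refine ⟨?_, by rw [row_conjP]; exact hc1⟩
      rw [row_conjP]
      have hsum := sum_range_row c
      have hle : ∀ i, 1 ≤ i → row c i ≤ 1 := fun i hi => (row_antitone c hi).trans h1
      have hcount : ∀ i ∈ range 14,
          row c i = (if i < colLen c 0 then 1 else 0) + if i = 0 then 6 else 0 := by
        intro i _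
        have hp := lt_colLen_iff c i 0
        rcases Nat.eq_zero_or_pos i with rfl | hi
        · rw [if_pos (hp.mpr (by omega)), if_pos rfl]; omega
        · have := hle i hi
          rw [if_neg (by omega : ¬ i = 0)]
          split_ifs with h <;> rw [hp] at h <;> omega
      rw [sum_congr rfl hcount, sum_add_distrib, ← card_filter, sum_ite_eq'] at hsum
      simp only [mem_range, show (0 : ℕ) < 14 by omega, if_true] at hsum
      have hL : colLen c 0 ≤ 14 :=
        (card_le_card (filter_subset _ _)).trans_eq (card_range 14)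
      rw [show (range 14).filter (fun i => i < colLen c 0) = range (colLen c 0) by
        ext; simp; omega, card_range] at hsum
      omega
    obtain ⟨d, S, hS, rest⟩ := exists_mod_two_vec_hook (conjP c) e.1 e.2
    exact ⟨d, S, Or.inr fun g => (hS g).trans (chi_conjP c g), rest⟩

/-- The witness for both exceptional shapes, in a form of the shape or of its sign twist. -/
theorem exists_exceptional_vec (c : (total (pieces [] 2)).Partition) (h1 : row c 1 ≤ 1)
    (h0 : row c 0 = 8 ∨ row c 0 = 7) :
    ∃ (d : ℕ) (S : Perm (Fin (total (pieces [] 2))) →* Matrix (Fin d) (Fin d) ℤ),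
      ((∀ g, (S g).trace = chi (beta c) g) ∨
        ∀ g, (S g).trace = (Perm.sign g : ℤ) * chi (beta c) g) ∧
      ∃ w : Fin d → ZMod 2, w ≠ 0 ∧
        (∀ y : Perm (Fin (total (pieces [] 2))),
          layCls (pieces [] 2) ∘ y = layCls (pieces [] 2) → red S y *ᵥ w = w) ∧
        ∀ g ∈ layGs (pieces [] 2), w + red S g *ᵥ w + red S (g * g) *ᵥ w = 0 :=
  exists_exceptional_vec_fin c h1 h0

end Vale.Agent.P197.Exceptional
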