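import Vale.Agent.P197.Criterion.Colouring
import Vale.Agent.P197.SymChar.Dominance

/-!
# An integral form of the hook `(8, 1^6)` seen on seven-element subsets

Modulo two the polytabloid of a hook depends only on the set of points in the long column, and
some coefficient of it detects containment of a given six-element set in that column.
-/

open Finset Equiv
open scoped Matrix

namespace Vale.Agent.P197.Exceptional

open SymChar Criterion

/-- Some permutation carries a finite set onto another one of the same size. -/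
lemma exists_perm_image {α : Type*} [Fintype α] [DecidableEq α] {A B : Finset α}
    (h : A.card = B.card) : ∃ g : Perm α, A.image g = B := by
  let e : {x // x ∈ A} ≃ {x // x ∈ B} := Fintype.equivOfCardEq (by simp [h])
  refine ⟨e.extendSubtype, eq_of_subset_of_card_le (fun y hy => ?_) ?_⟩
  · obtain ⟨x, hx, rfl⟩ := mem_image.mp hy
    exact e.extendSubtype_mem x hx
  · rw [card_image_of_injective _ e.extendSubtype.injective, h]

section Tableau

variable (T : Fin 14 → Fin 14)

/-- The points in the first column. -/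
def firstCol : Finset (Fin 14) := {x | colOf T x = 0}

/-- The points outside the first row. -/
def legPts : Finset (Fin 14) := {x | T x ≠ 0}

variable {T}

lemma legPts_subset (h1 : ∀ i, i ≠ 0 → cnt T i ≤ 1) : legPts T ⊆ firstCol T := by
  intro x hx
  simp only [legPts, mem_filter, mem_univ, true_and] at hx
  simp only [firstCol, mem_filter, mem_univ, true_and, colOf, card_eq_zero, filter_eq_empty_iff]
  intro y _ hy
  exact hy.2.ne (card_le_one.mp (h1 _ hx) y (by simp [hy.1]) x (by simp))

lemma eq_of_notMem_firstCol (h1 : ∀ i, i ≠ 0 → cnt T i ≤ 1) {x : Fin 14}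
    (hx : x ∉ firstCol T) : T x = 0 := by
  by_contra h
  exact hx (legPts_subset h1 (by simp [legPts, h]))

lemma card_legPts (h0 : cnt T 0 = 8) : (legPts T).card = 6 := by
  have h : legPts T = ({x | T x = 0} : Finset (Fin 14))ᶜ := by ext x; simp [legPts]
  rw [h, card_compl, Fintype.card_fin]
  simp only [cnt] at h0
  omega

lemma card_firstCol (h0 : cnt T 0 = 8) (h1 : ∀ i, i ≠ 0 → cnt T i ≤ 1) :
    (firstCol T).card = 7 := by
  classical
  have hne : ({x | T x = 0} : Finset (Fin 14)).Nonempty := card_pos.mp (by simp only [cnt] at h0; omega)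
  set z := ({x | T x = 0} : Finset (Fin 14)).min' hne
  have hz : T z = 0 := (mem_filter.mp (min'_mem _ hne)).2
  have heq : firstCol T = insert z (legPts T) := by
    ext x
    constructor
    · intro hx
      rw [mem_insert]
      by_cases hT : T x = 0
      · refine Or.inl (row_col_injective T (hT.trans hz.symm) ?_)
        simp only [firstCol, mem_filter, mem_univ, true_and] at hx
        rw [hx, eq_comm, colOf, card_eq_zero, filter_eq_empty_iff]
        intro y _ hy
        exact absurd (min'_le _ y (by simp [hy.1, hz])) (not_le.mpr hy.2)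
      · exact Or.inr (by simp [legPts, hT])
    · intro hx
      rcases mem_insert.mp hx with rfl | hx
      · simp only [firstCol, mem_filter, mem_univ, true_and, colOf, card_eq_zero,
          filter_eq_empty_iff]
        intro y _ hy
        exact absurd (min'_le _ y (by simp [hy.1, hz])) (not_le.mpr hy.2)
      · exact legPts_subset h1 hx
  rw [heq, card_insert_of_notMem (by simp [legPts, hz]), card_legPts h0]

lemma mem_colStab_iff (h1 : ∀ i, i ≠ 0 → cnt T i ≤ 1) {c : Perm (Fin 14)} :
    c ∈ colStab T ↔ ∀ x, x ∉ firstCol T → c x = x := by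
  simp only [colStab, mem_filter, mem_univ, true_and]
  constructor
  · intro h x hx
    have hc : c x ∉ firstCol T := by
      simpa [firstCol, show colOf T (c x) = colOf T x from congrFun h x] using hx
    exact row_col_injective T ((eq_of_notMem_firstCol h1 hc).trans (eq_of_notMem_firstCol h1 hx).symm)
      (congrFun h x)
  · intro h
    funext x
    by_cases hx : x ∈ firstCol T
    · have hc : c x ∈ firstCol T := by
        by_contra hc
        exact hc (by rwa [c.injective (h _ hc)])
      simp only [firstCol, mem_filter, mem_univ, true_and] at hx hc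
      simp [hx, hc]
    · simp [h x hx]

/-- The parity of the coefficient at `1` of a translate of the generator. -/
lemma coeff_translate (h1 : ∀ i, i ≠ 0 → cnt T i ≤ 1) (g : Perm (Fin 14)) :
    (((MonoidAlgebra.single g (1 : ℤ) * coYoungSymZ T).coeff 1 : ℤ) : ZMod 2) =
      if legPts T ⊆ (firstCol T).image g then 1 else 0 := by
  classical
  have hodd : ∀ c : Perm (Fin 14), ((Perm.sign c : ℤ) : ZMod 2) = 1 := fun c => by
    rcases Int.units_eq_one_or (Perm.sign c) with h | h <;> simp [h]
  have e1 : (((MonoidAlgebra.single g (1 : ℤ) * coYoungSymZ T).coeff 1 : ℤ) : ZMod 2) =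
      ((#{c ∈ colStab T | T ∘ ⇑(g * c) = T} : ℕ) : ZMod 2) := by
    simp only [coYoungSymZ, sum_mul, mul_sum, MonoidAlgebra.single_mul_single,
      MonoidAlgebra.coeff_sum, Finsupp.finsetSum_apply, MonoidAlgebra.coeff_single,
      Finsupp.single_apply, one_mul, mul_one, Int.cast_sum]
    first | rw [sum_comm (s := stab T)] | skip
    rw [card_filter, Nat.cast_sum]
    refine sum_congr rfl fun c _ => ?_
    split_ifs with h
    · have hr : (g * c)⁻¹ ∈ stab T := by
        rw [mem_stab]
        funext x
        simpa using (congrFun h ((g * c)⁻¹ x)).symm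
      rw [sum_eq_single_of_mem _ hr fun r _ hne => ?_, if_pos (by group), hodd, Nat.cast_one]
      rw [if_neg fun e => hne ?_, Int.cast_zero]
      exact eq_inv_of_mul_eq_one_right (by rw [mul_assoc]; exact e)
    · refine (sum_eq_zero fun r hr => ?_).trans Nat.cast_zero.symm
      rw [if_neg fun e => h ?_, Int.cast_zero]
      rw [mem_stab] at hr
      have e' : g * c * r = 1 := by rw [mul_assoc]; exact e
      rw [eq_inv_of_mul_eq_one_left e']
      funext x
      simpa using (congrFun hr (r⁻¹ x)).symm
  rw [e1]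
  have leg : ∀ c : Perm (Fin 14), T ∘ ⇑(g * c) = T → ∀ d ∈ legPts T, g (c d) = d := by
    intro c hc d hd
    simp only [legPts, mem_filter, mem_univ, true_and] at hd
    exact card_le_one.mp (h1 _ hd) _ (by simpa using congrFun hc d) d (by simp)
  by_cases hsub : legPts T ⊆ (firstCol T).image g
  · rw [if_pos hsub]
    have hmem : ∀ d ∈ legPts T, g.symm d ∈ firstCol T := fun d hd => by
      obtain ⟨a, ha, rfl⟩ := mem_image.mp (hsub hd)
      simpa using ha
    let e : {x // x ∈ legPts T ∨ x ∉ firstCol T} ≃ {x // g x ∈ legPts T ∨ x ∉ firstCol T} :=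
      { toFun := fun x => if h : x.1 ∈ legPts T then ⟨g.symm x.1, Or.inl (by simp [h])⟩
          else ⟨x.1, Or.inr (x.2.resolve_left h)⟩
        invFun := fun x => if h : g x.1 ∈ legPts T then ⟨g x.1, Or.inl h⟩
          else ⟨x.1, Or.inr (x.2.resolve_left h)⟩
        left_inv := fun x => by
          by_cases h : x.1 ∈ legPts T
          · simp [h]
          · have h2 : g x.1 ∉ legPts T := fun h3 => (x.2.resolve_left h) (by simpa using hmem _ h3)
            simp [h, h2]
        right_inv := fun x => by
          by_cases h : g x.1 ∈ legPts T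
          · simp [h]
          · have h2 : x.1 ∉ legPts T := fun h3 => (x.2.resolve_left h) (legPts_subset h1 h3)
            simp [h, h2] }
    set c := e.extendSubtype
    have hcd : ∀ x ∈ legPts T, c x = g.symm x := fun x hx => by
      rw [e.extendSubtype_apply_of_mem x (Or.inl hx)]; simp [e, hx]
    have hco : ∀ x, x ∉ firstCol T → c x = x := fun x hx => by
      rw [e.extendSubtype_apply_of_mem x (Or.inr hx)]
      have hl : x ∉ legPts T := fun h => hx (legPts_subset h1 h)
      simp [e, hl]
    have hcT : T ∘ ⇑(g * c) = T := by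
      funext x
      by_cases hx : x ∈ legPts T
      · simp [hcd x hx]
      · have hne : g (c x) ∉ legPts T := by
          intro h
          by_cases hxA : x ∈ firstCol T
          · have := e.extendSubtype_not_mem x (fun h' => h'.elim hx (· hxA))
            exact this (Or.inl h)
          · rw [hco x hxA] at h
            exact hxA (by simpa using hmem _ h)
        simp only [legPts, mem_filter, mem_univ, true_and, not_not] at hx hne
        simp [hne, hx]
    have huniq : {c' ∈ colStab T | T ∘ ⇑(g * c') = T} = {c} := by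
      refine eq_singleton_iff_unique_mem.mpr ⟨mem_filter.mpr ⟨(mem_colStab_iff h1).mpr hco, hcT⟩,
        fun c' hc' => ?_⟩
      rw [mem_filter, mem_colStab_iff h1] at hc'
      have hagree : ∀ x, (x ∈ legPts T ∨ x ∉ firstCol T) → c' x = c x := fun x hx => by
        rcases hx with hx | hx
        · rw [hcd x hx, Equiv.eq_symm_apply]; exact leg c' hc'.2 x hx
        · rw [hco x hx, hc'.1 x hx]
      refine Equiv.ext fun x => ?_
      by_cases hx : x ∈ legPts T ∨ x ∉ firstCol T
      · exact hagree x hx
      · push Not at hx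
        by_contra hne
        obtain ⟨y, hy⟩ := c.surjective (c' x)
        have hyx : y ≠ x := fun h => hne (by rw [← hy, h])
        by_cases hy' : y ∈ legPts T ∨ y ∉ firstCol T
        · exact hyx (c'.injective (by rw [hagree y hy', hy]))
        · push Not at hy'
          have hz : ∀ u, u ∈ firstCol T → u ∉ legPts T → T u = 0 ∧ colOf T u = 0 := fun u hu hu' => by
            simp only [firstCol, legPts, mem_filter, mem_univ, true_and, not_not] at hu hu'
            exact ⟨hu', hu⟩
          exact hyx (row_col_injective T ((hz y hy'.2 hy'.1).1.trans (hz x hx.2 hx.1).1.symm)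
            ((hz y hy'.2 hy'.1).2.trans (hz x hx.2 hx.1).2.symm))
    rw [huniq, card_singleton, Nat.cast_one]
  · rw [if_neg hsub]
    have : ({c ∈ colStab T | T ∘ ⇑(g * c) = T} : Finset _) = ∅ := by
      refine filter_eq_empty_iff.mpr fun c hc hcT => hsub fun d hd => mem_image.mpr ⟨c d, ?_, leg c hcT d hd⟩
      rw [mem_colStab_iff h1] at hc
      by_contra h
      exact h (by rw [c.injective (hc _ h)]; exact legPts_subset h1 hd)
    rw [this, card_empty, Nat.cast_zero]

/-- A permutation preserving the first column fixes the generator up to sign. -/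
lemma single_mul_of_stabilises (h1 : ∀ i, i ≠ 0 → cnt T i ≤ 1) (g : Perm (Fin 14))
    (hg : (firstCol T).image g = firstCol T) :
    ∃ s : ℤ, (s : ZMod 2) = 1 ∧
      MonoidAlgebra.single g (1 : ℤ) * coYoungSymZ T = s • coYoungSymZ T := by
  classical
  have hiff : ∀ x, g x ∈ firstCol T ↔ x ∈ firstCol T := fun x => by
    conv_lhs => rw [← hg]
    exact g.injective.mem_finset_image
  set c₁ : Perm (Fin 14) := Perm.ofSubtype (g.subtypePerm (p := (· ∈ firstCol T)) hiff)
  have hc₁ : ∀ x, x ∉ firstCol T → c₁ x = x := fun x hx =>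
    Perm.ofSubtype_apply_of_not_mem _ hx
  have hc₁' : ∀ x, x ∈ firstCol T → c₁ x = g x := fun x hx => by
    simp [c₁, Perm.ofSubtype_apply_of_mem _ hx]
  set r₁ := c₁⁻¹ * g
  have hr₁ : ∀ x, x ∈ firstCol T → r₁ x = x := fun x hx => by
    simp [r₁, Perm.mul_apply, ← hc₁' x hx]
  have hrow : ⇑r₁ ∈ {f : Fin 14 → Fin 14 | T ∘ f = T} := by
    funext x
    by_cases hx : x ∈ firstCol T
    · simp [hr₁ x hx]
    · have : r₁ x ∉ firstCol T := fun h => hx (by rwa [r₁.injective (hr₁ _ h)] at h)
      simp [eq_of_notMem_firstCol h1 hx, eq_of_notMem_firstCol h1 this]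
  set U : MonoidAlgebra ℤ (Perm (Fin 14)) :=
    ∑ c ∈ colStab T, MonoidAlgebra.single c (Perm.sign c : ℤ) with hU
  set W : MonoidAlgebra ℤ (Perm (Fin 14)) := ∑ r ∈ stab T, MonoidAlgebra.single r 1 with hW
  have hcomm : MonoidAlgebra.single r₁ (1 : ℤ) * U = U * MonoidAlgebra.single r₁ 1 := by
    rw [hU, mul_sum, sum_mul]
    refine sum_congr rfl fun c hc => ?_
    rw [MonoidAlgebra.single_mul_single, MonoidAlgebra.single_mul_single, one_mul, mul_one]
    congr 1
    refine Perm.Disjoint.commute (fun x => ?_)
    by_cases hx : x ∈ firstCol T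
    · exact Or.inl (hr₁ x hx)
    · exact Or.inr ((mem_colStab_iff h1).mp hc x hx)
  have habs : MonoidAlgebra.single r₁ (1 : ℤ) * W = W := by
    rw [hW, mul_sum]
    simp only [MonoidAlgebra.single_mul_single, one_mul]
    refine Finset.sum_equiv (Equiv.mulLeft r₁) (fun r => ?_) fun r _ => rfl
    have hr' : T ∘ ⇑r₁ = T := hrow
    simp only [mem_stab, Equiv.coe_mulLeft, Perm.coe_mul, ← Function.comp_assoc, hr']
  have hsgn : MonoidAlgebra.single c₁ (1 : ℤ) * U = (Perm.sign c₁ : ℤ) • U := by
    rw [hU, mul_sum, smul_sum]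
    refine Finset.sum_equiv (Equiv.mulLeft c₁) (fun c => ?_) fun c _ => ?_
    · simp only [Equiv.coe_mulLeft, mem_colStab_iff h1, Perm.mul_apply]
      constructor <;> intro h x hx
      · rw [h x hx, hc₁ x hx]
      · exact c₁.injective ((h x hx).trans (hc₁ x hx).symm)
    · rw [Equiv.coe_mulLeft, MonoidAlgebra.single_mul_single, one_mul, MonoidAlgebra.smul_single,
        Perm.sign_mul, Units.val_mul, smul_eq_mul, ← mul_assoc]
      rcases Int.units_eq_one_or (Perm.sign c₁) with h | h <;> simp [h]
  refine ⟨(Perm.sign c₁ : ℤ), by rcases Int.units_eq_one_or (Perm.sign c₁) with h | h <;> simp [h],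
    ?_⟩
  have hgc : MonoidAlgebra.single g (1 : ℤ) =
      MonoidAlgebra.single c₁ 1 * MonoidAlgebra.single r₁ 1 := by
    rw [MonoidAlgebra.single_mul_single, one_mul, mul_inv_cancel_left]
  show _ * (U * W) = _ • (U * W)
  rw [hgc, mul_assoc, ← mul_assoc _ U W, hcomm, mul_assoc U, habs, ← mul_assoc, hsgn,
    smul_mul_assoc]

end Tableau

/-- An integral form of `(8, 1^6)` with a reduced vector for every seven-element set, and for every
six-element set a functional detecting containment. -/
theorem exists_hook_form (c : (14).Partition) (h0 : row c 0 = 8) (h1 : row c 1 ≤ 1) :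
    ∃ (d : ℕ) (S : Perm (Fin 14) →* Matrix (Fin d) (Fin d) ℤ)
      (V : Finset (Fin 14) → Fin d → ZMod 2),
      (∀ g, (S g).trace = chi (beta c) g) ∧
      (∀ (g : Perm (Fin 14)) A, A.card = 7 → red S g *ᵥ V A = V (A.image g)) ∧
      ∀ D : Finset (Fin 14), D.card = 6 → ∃ φ : (Fin d → ZMod 2) →ₗ[ZMod 2] ZMod 2,
        ∀ A, A.card = 7 → φ (V A) = if D ⊆ A then 1 else 0 := by
  classical
  set T := tableau c
  have hT : IsTableau c T := (exists_isTableau c).choose_spec
  have hc0 : cnt T 0 = 8 := by rw [hT]; exact h0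
  have hc1 : ∀ i, i ≠ 0 → cnt T i ≤ 1 := fun i hi => by
    rw [hT]
    exact (row_antitone c (Nat.one_le_iff_ne_zero.mpr fun h => hi (Fin.ext h))).trans h1
  obtain ⟨d, R, b, hR, hact, -, hy, hli⟩ := exists_latticeForm (coYoungSymZ T)
  have htr : ∀ g, (R g).trace = chi (beta c) g := fun g => by
    have h := hR g
    rw [castGA_coYoungSymZ, coYoung_character] at h
    simp only [chiP, chiC] at h
    exact_mod_cast h
  obtain ⟨z, hz⟩ := (Submodule.mem_span_range_iff_exists_fun ℤ).mp hy
  set v₀ : Fin d → ZMod 2 := fun i => (z i : ZMod 2)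
  have hcoord : ∀ g : Perm (Fin 14), MonoidAlgebra.single g (1 : ℤ) * coYoungSymZ T =
      ∑ i, (R g *ᵥ z) i • b i := by
    intro g
    rw [← hz, mul_sum]
    simp only [mul_smul_comm, hact, smul_sum, smul_smul]
    rw [sum_comm]
    refine sum_congr rfl fun i _ => ?_
    rw [Matrix.mulVec, dotProduct, sum_smul]
    exact sum_congr rfl fun j _ => by rw [mul_comm]
  have hredv : ∀ g, red R g *ᵥ v₀ = fun i => (((R g *ᵥ z) i : ℤ) : ZMod 2) := fun g => by
    funext i
    exact (RingHom.map_mulVec (Int.castRingHom (ZMod 2)) (R g) z i).symm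
  have hfix : ∀ g : Perm (Fin 14), (firstCol T).image g = firstCol T → red R g *ᵥ v₀ = v₀ := by
    intro g hg
    obtain ⟨s, hs, hgy⟩ := single_mul_of_stabilises hc1 g hg
    rw [hcoord, ← hz, smul_sum] at hgy
    simp only [smul_smul] at hgy
    have h := linearIndependent_iff'ₛ.mp hli univ _ _ hgy
    rw [hredv]
    funext i
    rw [h i (mem_univ i), Int.cast_mul, hs, one_mul]
  let V : Finset (Fin 14) → Fin d → ZMod 2 := fun A =>
    if h : ∃ g : Perm (Fin 14), (firstCol T).image g = A then red R h.choose *ᵥ v₀ else 0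
  have hV : ∀ g : Perm (Fin 14), V ((firstCol T).image g) = red R g *ᵥ v₀ := by
    intro g
    have h : ∃ k : Perm (Fin 14), (firstCol T).image k = (firstCol T).image g := ⟨g, rfl⟩
    simp only [V, dif_pos h]
    set k := h.choose
    have hk : (firstCol T).image k = (firstCol T).image g := h.choose_spec
    have hst : (firstCol T).image ⇑(g⁻¹ * k) = firstCol T := by
      rw [Perm.coe_mul, ← image_image, hk, image_image, ← Perm.coe_mul, inv_mul_cancel,
        Perm.coe_one, image_id]
    calc red R k *ᵥ v₀ = red R g *ᵥ (red R (g⁻¹ * k) *ᵥ v₀) := by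
          rw [Matrix.mulVec_mulVec, ← map_mul, mul_inv_cancel_left]
      _ = red R g *ᵥ v₀ := by rw [hfix _ hst]
  refine ⟨d, R, V, htr, fun g A hA => ?_, fun D hD => ?_⟩
  · obtain ⟨k, rfl⟩ := exists_perm_image ((card_firstCol hc0 hc1).trans hA.symm)
    rw [image_image, ← Perm.coe_mul, hV, hV, map_mul, Matrix.mulVec_mulVec]
  obtain ⟨σ, hσ⟩ := exists_perm_image (hD.trans (card_legPts hc0).symm)
  let ψ : (Fin d → ZMod 2) →ₗ[ZMod 2] ZMod 2 :=
    Fintype.linearCombination (ZMod 2) fun i => (((b i).coeff 1 : ℤ) : ZMod 2)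
  have hψ : ∀ g : Perm (Fin 14), ψ (red R g *ᵥ v₀) =
      (((MonoidAlgebra.single g (1 : ℤ) * coYoungSymZ T).coeff 1 : ℤ) : ZMod 2) := by
    intro g
    rw [hredv, hcoord]
    simp [ψ, Fintype.linearCombination_apply, MonoidAlgebra.coeff_sum, MonoidAlgebra.coeff_smul, -zsmul_eq_mul]
  refine ⟨ψ ∘ₗ (red R σ).mulVecLin, fun A hA => ?_⟩
  obtain ⟨k, rfl⟩ := exists_perm_image ((card_firstCol hc0 hc1).trans hA.symm)
  rw [LinearMap.comp_apply, Matrix.mulVecLin_apply, hV, Matrix.mulVec_mulVec, ← map_mul, hψ,
    coeff_translate hc1, Perm.coe_mul, ← image_image, ← hσ]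
  exact if_congr (image_subset_image_iff σ.injective) rfl rfl

end Vale.Agent.P197.Exceptional
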